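import Mathlib
import Vale.Agent.Lib.P248.helper1.ConeDefs

/-!
# P248, pool job SPA (helper99): the polar about an interior point as a projective image

For `z` in the interior of `S` with `-z ∈ S`, the polar of `S` about `z` is the image of the
polar of `S` about `0` under the projective map `y ↦ y / (1 - ⟪z, y⟫)`.
-/

namespace Vale.Agent.Lib.P248.H99Y

open MeasureTheory Set

open scoped ENNReal

open Vale.Agent.Lib.P248.H1

theorem mem_polarAt {m : ℕ} (K : Set (EuclideanSpace ℝ (Fin m)))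
    (z y : EuclideanSpace ℝ (Fin m)) :
    y ∈ polarAt K z ↔ ∀ x ∈ K, inner ℝ (x - z) y ≤ 1 := Iff.rfl

theorem mem_polarAt_zero {m : ℕ} (K : Set (EuclideanSpace ℝ (Fin m)))
    (y : EuclideanSpace ℝ (Fin m)) :
    y ∈ polarAt K 0 ↔ ∀ x ∈ K, inner ℝ x y ≤ 1 := by
  rw [mem_polarAt]
  constructor
  · intro h x hx
    have h1 := h x hx
    rw [sub_zero] at h1
    exact h1
  · intro h x hx
    rw [sub_zero]
    exact h x hx

theorem inner_lt_one_of_mem_interior {m : ℕ} (S : Set (EuclideanSpace ℝ (Fin m)))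
    (z : EuclideanSpace ℝ (Fin m)) (hz : z ∈ interior S) (y : EuclideanSpace ℝ (Fin m))
    (hy : y ∈ polarAt S 0) : inner ℝ z y < 1 := by
  rw [mem_polarAt_zero] at hy
  by_cases hy0 : y = 0
  · rw [hy0, inner_zero_right]
    exact one_pos
  · have hn : 0 < ‖y‖ := norm_pos_iff.mpr hy0
    obtain ⟨ε, hε, hball⟩ := Metric.mem_nhds_iff.mp (mem_interior_iff_mem_nhds.mp hz)
    have hx : z + (ε / (2 * ‖y‖)) • y ∈ S := by
      apply hball
      rw [Metric.mem_ball, dist_eq_norm, add_sub_cancel_left, norm_smul, Real.norm_eq_abs,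
        abs_of_pos (div_pos hε (mul_pos two_pos hn))]
      have e : ε / (2 * ‖y‖) * ‖y‖ = ε / 2 := by
        field_simp
      rw [e]
      linarith
    have h1 := hy _ hx
    rw [inner_add_left, real_inner_smul_left, real_inner_self_eq_norm_sq] at h1
    have e : ε / (2 * ‖y‖) * ‖y‖ ^ 2 = ε / 2 * ‖y‖ := by
      field_simp
    rw [e] at h1
    have h2 : 0 < ε / 2 * ‖y‖ := mul_pos (half_pos hε) hn
    linarith

theorem polarAt_eq_image {m : ℕ} (S : Set (EuclideanSpace ℝ (Fin m)))
    (z : EuclideanSpace ℝ (Fin m)) (hz : z ∈ interior S) (hmz : -z ∈ S) :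
    polarAt S z
      = (fun y : EuclideanSpace ℝ (Fin m) => (1 - inner ℝ z y)⁻¹ • y) '' polarAt S 0 := by
  ext y'
  constructor
  · intro hy'
    rw [mem_polarAt] at hy'
    have hu : 0 < 1 + inner ℝ z y' := by
      have h1 := hy' (-z) hmz
      have e : inner ℝ (-z - z) y' = -(2 * inner ℝ z y') := by
        rw [inner_sub_left, inner_neg_left]
        ring
      rw [e] at h1
      linarith
    refine ⟨(1 + inner ℝ z y')⁻¹ • y', ?_, ?_⟩
    · rw [mem_polarAt_zero]
      intro x hx
      have h1 := hy' x hx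
      rw [inner_sub_left] at h1
      rw [real_inner_smul_right, inv_mul_le_iff₀ hu]
      linarith
    · show (1 - inner ℝ z ((1 + inner ℝ z y')⁻¹ • y'))⁻¹ • (1 + inner ℝ z y')⁻¹ • y' = y'
      rw [real_inner_smul_right, smul_smul]
      have e : (1 - (1 + inner ℝ z y')⁻¹ * inner ℝ z y')⁻¹ * (1 + inner ℝ z y')⁻¹ = 1 := by
        have hne : (1 + inner ℝ z y') ≠ 0 := ne_of_gt hu
        have e1 : 1 - (1 + inner ℝ z y')⁻¹ * inner ℝ z y' = (1 + inner ℝ z y')⁻¹ := by
          field_simp
          ring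
        rw [e1, inv_inv]
        exact mul_inv_cancel₀ hne
      rw [e, one_smul]
  · rintro ⟨y, hy, rfl⟩
    have ht : inner ℝ z y < 1 := inner_lt_one_of_mem_interior S z hz y hy
    have ht' : 0 < 1 - inner ℝ z y := by linarith
    rw [mem_polarAt_zero] at hy
    show (1 - inner ℝ z y)⁻¹ • y ∈ polarAt S z
    rw [mem_polarAt]
    intro x hx
    have h1 := hy x hx
    rw [real_inner_smul_right, inner_sub_left, inv_mul_le_iff₀ ht']
    linarith

end Vale.Agent.Lib.P248.H99Y
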