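import Mathlib
import Vale.Agent.Lib.P248.helper25.ABDefs

/-!
# P248: three measure lemmas for the cone decomposition (pool piece AB9)

Volume of an affine preimage in `Fin n → ℝ`, removal of the coordinate hyperplanes from a set
in the closed positive orthant, and the one-dimensional integral of `((a - s) / a) ^ n`.
-/

open Vale.Agent.Lib.P248.H25 MeasureTheory
open scoped ENNReal

namespace Vale.Agent.Lib.P248.H99

theorem vol_affine_preimage {n : ℕ} (S : Set (Fin n → ℝ)) {a c : ℝ} (ha : 0 < a)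
    (hc : 0 < c) (w : Fin n → ℝ) :
    volume ((fun z : Fin n → ℝ => a⁻¹ • (c • z - w)) ⁻¹' S) =
      ENNReal.ofReal ((a / c) ^ n) * volume S := by
  have hr : c / a ≠ 0 := (div_pos hc ha).ne'
  have hset : (fun z : Fin n → ℝ => a⁻¹ • (c • z - w)) ⁻¹' S =
      (fun z : Fin n → ℝ => (c / a) • z) ⁻¹'
        ((fun y : Fin n → ℝ => y + (-(a⁻¹ • w))) ⁻¹' S) := by
    ext z
    simp only [Set.mem_preimage]
    have hz : a⁻¹ • (c • z - w) = (c / a) • z + (-(a⁻¹ • w)) := by
      rw [smul_sub, smul_smul, ← sub_eq_add_neg, inv_mul_eq_div]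
    rw [hz]
  rw [hset, Measure.addHaar_preimage_smul volume hr, measure_preimage_add_right]
  congr 1
  rw [Module.finrank_fin_fun, ← inv_pow, inv_div, abs_of_nonneg (by positivity)]

theorem vol_pos_part {n : ℕ} {S : Set (Fin n → ℝ)} (hS : ∀ b ∈ S, ∀ j, 0 ≤ b j) :
    volume (S ∩ {b | ∀ j, 0 < b j}) = volume S := by
  apply le_antisymm (measure_mono Set.inter_subset_left)
  have hsub : S ⊆ (S ∩ {b | ∀ j, 0 < b j}) ∪ ⋃ j, {b : Fin n → ℝ | b j = 0} := by
    intro b hb
    by_cases h : ∀ j, 0 < b j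
    · exact Or.inl ⟨hb, h⟩
    · rw [not_forall] at h
      obtain ⟨j, hj'⟩ := h
      have hj : b j ≤ 0 := not_lt.mp hj'
      exact Or.inr (Set.mem_iUnion.mpr ⟨j, le_antisymm hj (hS b hb j)⟩)
  have hnull : volume (⋃ j, {b : Fin n → ℝ | b j = 0}) = 0 := by
    rw [measure_iUnion_null_iff]
    intro j
    rw [volume_pi]
    exact Measure.pi_hyperplane _ j 0
  calc volume S
      ≤ volume ((S ∩ {b | ∀ j, 0 < b j}) ∪ ⋃ j, {b : Fin n → ℝ | b j = 0}) := measure_mono hsub
    _ ≤ volume (S ∩ {b | ∀ j, 0 < b j}) + volume (⋃ j, {b : Fin n → ℝ | b j = 0}) :=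
        measure_union_le _ _
    _ = volume (S ∩ {b | ∀ j, 0 < b j}) := by rw [hnull, add_zero]

theorem lintegral_pow_cone (n : ℕ) {a : ℝ} (ha : 0 < a) :
    ∫⁻ s in Set.Ioo 0 a, ENNReal.ofReal (((a - s) / a) ^ n) = ENNReal.ofReal (a / (n + 1)) := by
  have hcont : Continuous fun s : ℝ => ((a - s) / a) ^ n := by fun_prop
  have hint : IntegrableOn (fun s : ℝ => ((a - s) / a) ^ n) (Set.Ioo 0 a) :=
    (hcont.integrableOn_Icc (a := 0) (b := a)).mono_set Set.Ioo_subset_Icc_self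
  have hnn : 0 ≤ᵐ[volume.restrict (Set.Ioo 0 a)] fun s : ℝ => ((a - s) / a) ^ n := by
    filter_upwards [ae_restrict_mem measurableSet_Ioo] with s hs
    have h0 : 0 ≤ (a - s) / a := div_nonneg (by linarith [hs.2]) ha.le
    exact pow_nonneg h0 n
  rw [← ofReal_integral_eq_lintegral_ofReal hint hnn]
  congr 1
  rw [← integral_Ioc_eq_integral_Ioo, ← intervalIntegral.integral_of_le ha.le]
  have hrew : ∫ s in (0 : ℝ)..a, ((a - s) / a) ^ n =
      ∫ s in (0 : ℝ)..a, (fun u : ℝ => u ^ n) (1 - s / a) := by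
    congr 1
    funext s
    show ((a - s) / a) ^ n = (1 - s / a) ^ n
    congr 1
    field_simp
  rw [hrew, intervalIntegral.integral_comp_sub_div (fun u : ℝ => u ^ n) ha.ne' 1]
  simp [integral_pow, ha.ne']
  field_simp

end Vale.Agent.Lib.P248.H99
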