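import Mathlib
import Vale.Agent.Lib.P248.helper25.ABDefs

/-!
# P248: the orthant pieces of a locally anti-blocking body are Good (pool piece AB5)
-/

open Vale.Agent.Lib.P248.H25 MeasureTheory
open scoped ENNReal

namespace Vale.Agent.Lib.P248.H99

theorem refl_apply_true {n : ℕ} (σ : Fin n → Bool) (x : Fin n → ℝ) (i : Fin n)
    (h : σ i = true) : refl σ x i = x i := by
  unfold Vale.Agent.Lib.P248.H25.refl
  rw [if_pos h]

theorem refl_apply_false {n : ℕ} (σ : Fin n → Bool) (x : Fin n → ℝ) (i : Fin n)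
    (h : ¬ σ i = true) : refl σ x i = -x i := by
  unfold Vale.Agent.Lib.P248.H25.refl
  rw [if_neg h]

theorem continuous_refl {n : ℕ} (σ : Fin n → Bool) : Continuous (refl σ) := by
  refine continuous_pi fun i => ?_
  by_cases h : σ i = true
  · have he : (fun x : Fin n → ℝ => refl σ x i) = fun x => x i := by
      funext x
      exact refl_apply_true σ x i h
    rw [he]
    exact continuous_apply i
  · have he : (fun x : Fin n → ℝ => refl σ x i) = fun x => -x i := by
      funext x
      exact refl_apply_false σ x i h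
    rw [he]
    exact (continuous_apply i).neg

theorem refl_lin {n : ℕ} (σ : Fin n → Bool) (a b : ℝ) (z z' : Fin n → ℝ) :
    refl σ (a • z + b • z') = a • refl σ z + b • refl σ z' := by
  funext i
  by_cases h : σ i = true
  · simp only [Pi.add_apply, Pi.smul_apply, smul_eq_mul, refl_apply_true σ _ i h]
  · simp only [Pi.add_apply, Pi.smul_apply, smul_eq_mul, refl_apply_false σ _ i h]
    ring

theorem abs_refl {n : ℕ} (σ : Fin n → Bool) (z : Fin n → ℝ) (i : Fin n) :
    |refl σ z i| = |z i| := by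
  by_cases h : σ i = true
  · rw [refl_apply_true σ z i h]
  · rw [refl_apply_false σ z i h, abs_neg]

theorem refl_mul_refl {n : ℕ} (σ : Fin n → Bool) (z y : Fin n → ℝ) (i : Fin n) :
    refl σ z i * refl σ y i = z i * y i := by
  by_cases h : σ i = true
  · rw [refl_apply_true σ z i h, refl_apply_true σ y i h]
  · rw [refl_apply_false σ z i h, refl_apply_false σ y i h, neg_mul_neg]

theorem good_piece {n : ℕ} {K : Set (Fin n → ℝ)} (hcl : IsClosed K) (hc : Convex ℝ K)
    (hlab : LAB K) {ε R : ℝ} (hε : 0 < ε) (hcube : ∀ x : Fin n → ℝ, (∀ i, |x i| ≤ ε) → x ∈ K)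
    (hbdd : ∀ x ∈ K, ∀ i, |x i| ≤ R) (σ : Fin n → Bool) : Good (piece K σ) ε R := by
  refine ⟨?_, ?_, ⟨?_, ?_⟩, hε, ?_, ?_⟩
  · have h1 : IsClosed {z : Fin n → ℝ | ∀ i, 0 ≤ z i} := by
      have he : {z : Fin n → ℝ | ∀ i, 0 ≤ z i} = ⋂ i, {z : Fin n → ℝ | 0 ≤ z i} := by
        ext z
        rw [Set.mem_iInter]
        exact Iff.rfl
      rw [he]
      exact isClosed_iInter fun i => isClosed_le continuous_const (continuous_apply i)
    exact h1.inter (hcl.preimage (continuous_refl σ))
  · intro z hz z' hz' a b ha hb hab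
    refine ⟨fun i => ?_, ?_⟩
    · simp only [Pi.add_apply, Pi.smul_apply, smul_eq_mul]
      exact add_nonneg (mul_nonneg ha (hz.1 i)) (mul_nonneg hb (hz'.1 i))
    · rw [refl_lin]
      exact hc hz.2 hz'.2 ha hb hab
  · exact fun z hz => hz.1
  · intro z hz y hy
    refine ⟨fun i => (hy i).1, hlab (refl σ z) hz.2 (refl σ y) fun i => ⟨?_, ?_⟩⟩
    · rw [refl_mul_refl]
      exact mul_nonneg (hz.1 i) (hy i).1
    · rw [abs_refl, abs_refl, abs_of_nonneg (hy i).1, abs_of_nonneg (hz.1 i)]
      exact (hy i).2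
  · intro x hx
    refine ⟨fun i => (hx i).1, hcube _ fun i => ?_⟩
    rw [abs_refl, abs_of_nonneg (hx i).1]
    exact (hx i).2
  · intro z hz i
    have h := hbdd _ hz.2 i
    rw [abs_refl, abs_of_nonneg (hz.1 i)] at h
    exact h

end Vale.Agent.Lib.P248.H99
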